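import Mathlib
import Crest.Prelude.Def_ModularData

/-! Basic facts on the bounded functional calculus `LineCalculus`. -/

set_option autoImplicit false

namespace Crest.Agent.R84

open Crest.OpAlg Filter MeasureTheory
open scoped Topology InnerProductSpace BoundedContinuousFunction

variable {H : Type*} [NormedAddCommGroup H] [InnerProductSpace ℂ H] [CompleteSpace H]

theorem norm_apply_le (D : LineCalculus H) (f : ℝ →ᵇ ℂ) : ‖D.apply f‖ ≤ ‖f‖ :=
  NonUnitalStarAlgHom.norm_apply_le D.apply f

theorem norm_apply_apply_le (D : LineCalculus H) (f : ℝ →ᵇ ℂ) (x : H) :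
    ‖D.apply f x‖ ≤ ‖f‖ * ‖x‖ :=
  ((D.apply f).le_opNorm x).trans (by gcongr; exact norm_apply_le D f)

theorem apply_mul_apply (D : LineCalculus H) (f g : ℝ →ᵇ ℂ) (x : H) :
    D.apply (f * g) x = D.apply f (D.apply g x) := by
  rw [map_mul]; rfl

theorem apply_comm (D : LineCalculus H) (f g : ℝ →ᵇ ℂ) (x : H) :
    D.apply f (D.apply g x) = D.apply g (D.apply f x) := by
  rw [← apply_mul_apply, ← apply_mul_apply, mul_comm]

@[simp] theorem character_apply (t u : ℝ) :
    LineCalculus.character t u = Complex.exp (Complex.I * ((t * u : ℝ) : ℂ)) := rfl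

theorem character_add (s t : ℝ) :
    LineCalculus.character (s + t) = LineCalculus.character s * LineCalculus.character t := by
  ext u
  simp only [character_apply, BoundedContinuousFunction.coe_mul, Pi.mul_apply,
    ← Complex.exp_add]
  congr 1
  push_cast
  ring

theorem character_zero : LineCalculus.character 0 = 1 := by
  ext u
  simp

theorem star_character (t : ℝ) :
    star (LineCalculus.character t) = LineCalculus.character (-t) := by
  ext u
  simp only [BoundedContinuousFunction.coe_star, Pi.star_apply, character_apply,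
    Complex.star_def, ← Complex.exp_conj, map_mul, Complex.conj_I, Complex.conj_ofReal]
  congr 1
  push_cast
  ring

theorem norm_character_apply (t u : ℝ) : ‖LineCalculus.character t u‖ = 1 := by
  rw [character_apply, Complex.norm_exp]; simp

theorem wave_add (D : LineCalculus H) (s t : ℝ) : D.wave (s + t) = D.wave s * D.wave t := by
  simp only [LineCalculus.wave, character_add, map_mul]

theorem wave_add_apply (D : LineCalculus H) (s t : ℝ) (x : H) :
    D.wave (s + t) x = D.wave s (D.wave t x) := by
  rw [wave_add]; rfl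

@[simp] theorem wave_zero (D : LineCalculus H) : D.wave 0 = 1 := by
  simp only [LineCalculus.wave, character_zero, map_one]

theorem star_wave (D : LineCalculus H) (t : ℝ) : star (D.wave t) = D.wave (-t) := by
  simp only [LineCalculus.wave, ← star_character, map_star]

@[simp] theorem wave_neg_wave (D : LineCalculus H) (t : ℝ) (x : H) :
    D.wave (-t) (D.wave t x) = x := by
  rw [← wave_add_apply]; simp

@[simp] theorem wave_wave_neg (D : LineCalculus H) (t : ℝ) (x : H) :
    D.wave t (D.wave (-t) x) = x := by
  rw [← wave_add_apply]; simp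

theorem inner_wave_left (D : LineCalculus H) (t : ℝ) (x y : H) :
    ⟪D.wave t x, y⟫_ℂ = ⟪x, D.wave (-t) y⟫_ℂ := by
  rw [← star_wave, ContinuousLinearMap.star_eq_adjoint, ContinuousLinearMap.adjoint_inner_right]

@[simp] theorem inner_wave_wave (D : LineCalculus H) (t : ℝ) (x y : H) :
    ⟪D.wave t x, D.wave t y⟫_ℂ = ⟪x, y⟫_ℂ := by
  rw [inner_wave_left, wave_neg_wave]

@[simp] theorem norm_wave (D : LineCalculus H) (t : ℝ) (x : H) : ‖D.wave t x‖ = ‖x‖ := by
  have h := inner_wave_wave D t x x
  rw [inner_self_eq_norm_sq_to_K, inner_self_eq_norm_sq_to_K] at h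
  have h2 : ‖D.wave t x‖ ^ 2 = ‖x‖ ^ 2 := by exact_mod_cast h
  exact (pow_left_inj₀ (norm_nonneg _) (norm_nonneg _) two_ne_zero).1 h2

/-- The real cut-off `max 0 (min 1 (n + 1 - |u|))`. -/
noncomputable def cutR (n : ℕ) (u : ℝ) : ℝ := max 0 (min 1 (n + 1 - |u|))

theorem cutR_nonneg (n : ℕ) (u : ℝ) : 0 ≤ cutR n u := le_max_left _ _

theorem cutR_le_one (n : ℕ) (u : ℝ) : cutR n u ≤ 1 := max_le zero_le_one (min_le_left _ _)

theorem cutR_eq_one {n : ℕ} {u : ℝ} (h : |u| ≤ n) : cutR n u = 1 := by
  unfold cutR
  rw [min_eq_left (by linarith), max_eq_right zero_le_one]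

theorem cutR_eq_zero {n : ℕ} {u : ℝ} (h : (n : ℝ) + 1 ≤ |u|) : cutR n u = 0 := by
  unfold cutR
  rw [max_eq_left]
  exact (min_le_right _ _).trans (by linarith)

theorem continuous_cutR (n : ℕ) : Continuous (cutR n) := by
  unfold cutR; fun_prop

/-- The cut-off as a bounded continuous function. -/
noncomputable def cut (n : ℕ) : ℝ →ᵇ ℂ :=
  BoundedContinuousFunction.ofNormedAddCommGroup (fun u => ((cutR n u : ℝ) : ℂ))
    (Complex.continuous_ofReal.comp (continuous_cutR n)) 1 (fun u => by
      rw [Complex.norm_real, Real.norm_of_nonneg (cutR_nonneg n u)]; exact cutR_le_one n u)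

@[simp] theorem cut_apply (n : ℕ) (u : ℝ) : cut n u = ((cutR n u : ℝ) : ℂ) := rfl

theorem norm_cut_le (n : ℕ) : ‖cut n‖ ≤ 1 :=
  (BoundedContinuousFunction.norm_le zero_le_one).2 fun u => by
    rw [cut_apply, Complex.norm_real, Real.norm_of_nonneg (cutR_nonneg n u)]; exact cutR_le_one n u

theorem norm_cut_sub_one_le (n : ℕ) : ‖cut n - 1‖ ≤ 1 :=
  (BoundedContinuousFunction.norm_le zero_le_one).2 fun u => by
    have : (cut n - 1) u = ((cutR n u - 1 : ℝ) : ℂ) := by simp
    rw [this, Complex.norm_real, Real.norm_eq_abs, abs_le]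
    constructor <;> linarith [cutR_nonneg n u, cutR_le_one n u]

theorem tendsto_cut (D : LineCalculus H) (x : H) :
    Tendsto (fun n => D.apply (cut n) x) atTop (𝓝 x) := by
  rw [Metric.tendsto_atTop]
  intro ε hε
  obtain ⟨f, hf, hfx⟩ := D.window x ε hε
  obtain ⟨R, hR⟩ := hf.isCompact.isBounded.subset_closedBall 0
  obtain ⟨N, hN⟩ := exists_nat_ge R
  refine ⟨N, fun n hn => ?_⟩
  have h1 : (cut n - 1) * f = 0 := by
    ext u
    by_cases hu : f u = 0
    · simp [hu]
    · have : u ∈ Metric.closedBall (0 : ℝ) R := hR (subset_tsupport _ hu)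
      rw [mem_closedBall_zero_iff, Real.norm_eq_abs] at this
      have h2 : |u| ≤ n := this.trans (hN.trans (by exact_mod_cast hn))
      simp [cutR_eq_one h2]
  have h2 : D.apply (cut n) x - x = D.apply (cut n - 1) (x - D.apply f x) := by
    rw [map_sub (D.apply (cut n - 1)), ← apply_mul_apply, h1, map_zero, map_sub, map_one]
    simp
  rw [dist_eq_norm, h2]
  calc _ ≤ ‖cut n - 1‖ * ‖x - D.apply f x‖ := norm_apply_apply_le _ _ _
    _ ≤ 1 * ‖x - D.apply f x‖ := by gcongr; exact norm_cut_sub_one_le n
    _ < ε := by rw [one_mul, norm_sub_rev]; exact hfx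

theorem norm_character_sub_mul_cut_le (n : ℕ) (s t : ℝ) :
    ‖LineCalculus.character s * cut n - LineCalculus.character t * cut n‖ ≤
      (n + 1) * |s - t| := by
  refine (BoundedContinuousFunction.norm_le (by positivity)).2 fun u => ?_
  simp only [BoundedContinuousFunction.coe_sub, BoundedContinuousFunction.coe_mul, Pi.sub_apply,
    Pi.mul_apply, cut_apply, ← sub_mul, norm_mul]
  by_cases hu : (n : ℝ) + 1 ≤ |u|
  · rw [cutR_eq_zero hu]; simp; positivity
  · push Not at hu
    have h1 : ‖LineCalculus.character s u - LineCalculus.character t u‖ ≤ |u| * |s - t| := by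
      have h3 : LineCalculus.character s u - LineCalculus.character t u =
          LineCalculus.character t u * (Complex.exp (Complex.I * (((s - t) * u : ℝ) : ℂ)) - 1) := by
        rw [mul_sub, mul_one, character_apply, character_apply, ← Complex.exp_add]
        congr 2
        push_cast
        ring
      rw [h3, norm_mul, norm_character_apply, one_mul]
      refine (Real.norm_exp_I_mul_ofReal_sub_one_le).trans ?_
      rw [Real.norm_eq_abs, abs_mul, mul_comm]
    have h2 : ‖((cutR n u : ℝ) : ℂ)‖ ≤ 1 := by
      rw [Complex.norm_real, Real.norm_of_nonneg (cutR_nonneg n u)]; exact cutR_le_one n u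
    calc _ ≤ (|u| * |s - t|) * 1 := by gcongr
      _ ≤ (n + 1) * |s - t| := by rw [mul_one]; gcongr

theorem continuous_character_mul_cut (n : ℕ) :
    Continuous fun t : ℝ => LineCalculus.character t * cut n := by
  refine (LipschitzWith.of_dist_le_mul (K := ⟨n + 1, by positivity⟩) fun s t => ?_).continuous
  rw [dist_eq_norm, Real.dist_eq]
  exact norm_character_sub_mul_cut_le n s t

/-- `f ↦ f(D) x` as a continuous linear map. -/
noncomputable def applyAt (D : LineCalculus H) (x : H) : (ℝ →ᵇ ℂ) →L[ℂ] H :=
  LinearMap.mkContinuous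
    { toFun := fun f => D.apply f x
      map_add' := fun f g => by simp
      map_smul' := fun c f => by simp } ‖x‖ fun f => by
      simpa [mul_comm] using norm_apply_apply_le D f x

@[simp] theorem applyAt_apply (D : LineCalculus H) (x : H) (f : ℝ →ᵇ ℂ) :
    applyAt D x f = D.apply f x := rfl

theorem continuous_wave (D : LineCalculus H) (x : H) : Continuous fun t => D.wave t x := by
  have h1 : ∀ n, Continuous fun t => D.wave t (D.apply (cut n) x) := fun n => by
    have := (applyAt D x).continuous.comp (continuous_character_mul_cut n)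
    refine this.congr fun t => ?_
    simp only [Function.comp_apply, applyAt_apply, apply_mul_apply, LineCalculus.wave]
  refine continuous_of_uniform_approx_of_continuous fun u hu => ?_
  obtain ⟨ε, hε, hεu⟩ := Metric.mem_uniformity_dist.1 hu
  obtain ⟨N, hN⟩ := Metric.tendsto_atTop.1 (tendsto_cut D x) ε hε
  refine ⟨_, h1 N, fun t => hεu ?_⟩
  rw [dist_eq_norm, ← map_sub, norm_wave, ← dist_eq_norm, dist_comm]
  exact hN N le_rfl

/-- Fourier representation of a function of `D`. -/
theorem integral_wave_eq_apply (D : LineCalculus H) (k : ℝ → ℂ) (hk : Integrable k) (c : ℝ)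
    (f : ℝ →ᵇ ℂ) (hf : ∀ u, f u = ∫ w, k w * LineCalculus.character (c * w) u) (x : H) :
    ∫ w, k w • D.wave (c * w) x = D.apply f x := by
  have hint : ∀ y : H, Integrable fun w => k w • D.wave (c * w) y := fun y => by
    refine Integrable.mono' (hk.norm.mul_const ‖y‖) ?_ (Eventually.of_forall fun w => ?_)
    · exact hk.aestronglyMeasurable.smul
        ((continuous_wave D y).comp (continuous_const.mul continuous_id)).aestronglyMeasurable
    · rw [norm_smul, norm_wave]
  have h1 : ∀ n, ∫ w, k w • D.wave (c * w) (D.apply (cut n) x) =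
      D.apply f (D.apply (cut n) x) := fun n => by
    have hi : Integrable fun w => k w • (LineCalculus.character (c * w) * cut n) := by
      refine Integrable.mono' hk.norm ?_ (Eventually.of_forall fun w => ?_)
      · exact hk.aestronglyMeasurable.smul
          ((continuous_character_mul_cut n).comp
            (continuous_const.mul continuous_id)).aestronglyMeasurable
      · rw [norm_smul]
        have : ‖LineCalculus.character (c * w) * cut n‖ ≤ 1 := by
          refine (norm_mul_le _ _).trans ?_
          have h3 : ‖LineCalculus.character (c * w)‖ ≤ 1 :=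
            (BoundedContinuousFunction.norm_le zero_le_one).2 fun u => (norm_character_apply _ _).le
          calc ‖LineCalculus.character (c * w)‖ * ‖cut n‖ ≤ 1 * 1 := by
                gcongr; exact norm_cut_le n
            _ = 1 := one_mul _
        calc _ ≤ ‖k w‖ * 1 := by gcongr
          _ = _ := mul_one _
    have h2 : ∫ w, k w • (LineCalculus.character (c * w) * cut n) = f * cut n := by
      ext u
      have := (BoundedContinuousFunction.evalCLM ℂ u).integral_comp_comm hi
      simp only [BoundedContinuousFunction.evalCLM_apply] at this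
      rw [← this, BoundedContinuousFunction.coe_mul, Pi.mul_apply, hf, ← integral_mul_const]
      refine integral_congr_ae (Eventually.of_forall fun w => ?_)
      simp only [BoundedContinuousFunction.coe_smul, BoundedContinuousFunction.coe_mul,
        Pi.mul_apply, smul_eq_mul, mul_assoc]
    have h3 := (applyAt D x).integral_comp_comm hi
    rw [h2] at h3
    rw [← apply_mul_apply, ← applyAt_apply D x (f * cut n), ← h3]
    refine integral_congr_ae (Eventually.of_forall fun w => ?_)
    simp only [map_smul, applyAt_apply, apply_mul_apply, LineCalculus.wave]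
  have h4 : Tendsto (fun n => D.apply f (D.apply (cut n) x)) atTop (𝓝 (D.apply f x)) :=
    ((D.apply f).continuous.tendsto x).comp (tendsto_cut D x)
  have h5 : Tendsto (fun n => ∫ w, k w • D.wave (c * w) (D.apply (cut n) x)) atTop
      (𝓝 (∫ w, k w • D.wave (c * w) x)) := by
    rw [tendsto_iff_norm_sub_tendsto_zero]
    have h6 : Tendsto (fun n => (∫ w, ‖k w‖) * ‖D.apply (cut n) x - x‖) atTop (𝓝 0) := by
      have := (tendsto_iff_norm_sub_tendsto_zero.1 (tendsto_cut D x)).const_mul (∫ w, ‖k w‖)
      simpa using this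
    refine squeeze_zero (fun _ => norm_nonneg _) (fun n => ?_) h6
    rw [← integral_sub (hint _) (hint _), ← integral_mul_const]
    refine norm_integral_le_of_norm_le (hk.norm.mul_const _) (Eventually.of_forall fun w => ?_)
    rw [← smul_sub, ← map_sub, norm_smul, norm_wave]
  simp_rw [h1] at h5
  exact tendsto_nhds_unique h5 h4

/-! Spectral subspaces. -/

theorem supp_apply (D : LineCalculus H) {K : Set ℝ} {x : H} (hx : D.SupportedIn K x)
    (g : ℝ →ᵇ ℂ) : D.SupportedIn K (D.apply g x) := fun f hf => by
  rw [apply_comm, hx f hf, map_zero]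

theorem supp_wave (D : LineCalculus H) {K : Set ℝ} {x : H} (hx : D.SupportedIn K x)
    (t : ℝ) : D.SupportedIn K (D.wave t x) := supp_apply D hx _

theorem supp_add (D : LineCalculus H) {K : Set ℝ} {x y : H} (hx : D.SupportedIn K x)
    (hy : D.SupportedIn K y) : D.SupportedIn K (x + y) := fun f hf => by
  rw [map_add, hx f hf, hy f hf, add_zero]

theorem supp_sub (D : LineCalculus H) {K : Set ℝ} {x y : H} (hx : D.SupportedIn K x)
    (hy : D.SupportedIn K y) : D.SupportedIn K (x - y) := fun f hf => by
  rw [map_sub, hx f hf, hy f hf, sub_zero]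

theorem supp_smul (D : LineCalculus H) {K : Set ℝ} {x : H} (hx : D.SupportedIn K x) (c : ℂ) :
    D.SupportedIn K (c • x) := fun f hf => by
  rw [map_smul, hx f hf, smul_zero]

theorem supp_of_vanish (D : LineCalculus H) {K : Set ℝ} (g : ℝ →ᵇ ℂ) (hg : ∀ u, u ∉ K → g u = 0)
    (x : H) : D.SupportedIn K (D.apply g x) := fun f hf => by
  have : f * g = 0 := by
    ext u
    by_cases hu : u ∈ K
    · simp [hf u hu]
    · simp [hg u hu]
  rw [← apply_mul_apply, this, map_zero]; rfl

theorem apply_congr_of_supp (D : LineCalculus H) {K : Set ℝ} {x : H} (hx : D.SupportedIn K x)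
    {f g : ℝ →ᵇ ℂ} (h : ∀ u ∈ K, f u = g u) : D.apply f x = D.apply g x := by
  have := hx (f - g) fun u hu => by simp [h u hu]
  rwa [map_sub, sub_apply, sub_eq_zero] at this

theorem apply_eq_self_of_supp (D : LineCalculus H) {K : Set ℝ} {x : H} (hx : D.SupportedIn K x)
    {f : ℝ →ᵇ ℂ} (h : ∀ u ∈ K, f u = 1) : D.apply f x = x := by
  rw [apply_congr_of_supp D hx (g := 1) (by simpa using h), map_one]; rfl

theorem norm_apply_le_of_supp (D : LineCalculus H) {p q : ℝ} (hpq : p ≤ q) {x : H}
    (hx : D.SupportedIn (Set.Icc p q) x) {f : ℝ →ᵇ ℂ} {c : ℝ}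
    (h : ∀ u ∈ Set.Icc p q, ‖f u‖ ≤ c) : ‖D.apply f x‖ ≤ c * ‖x‖ := by
  have hc : 0 ≤ c := (norm_nonneg _).trans (h p ⟨le_rfl, hpq⟩)
  let g : ℝ →ᵇ ℂ := f.compContinuous
    ⟨fun u => (Set.projIcc p q hpq u : ℝ), continuous_subtype_val.comp continuous_projIcc⟩
  have hg : ∀ u ∈ Set.Icc p q, f u = g u := fun u hu => by
    simp [g, Set.projIcc_of_mem hpq hu]
  rw [apply_congr_of_supp D hx hg]
  refine (norm_apply_apply_le D g x).trans ?_
  gcongr
  exact (BoundedContinuousFunction.norm_le hc).2 fun u => h _ (Set.projIcc p q hpq u).2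

end Crest.Agent.R84
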