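import Crest.Agent.R84.Mean

/-! Spectral filtering and norm truncation inside the von Neumann algebra. -/

set_option autoImplicit false

namespace Crest.Agent.R84

open Crest.OpAlg Filter MeasureTheory
open scoped Topology InnerProductSpace BoundedContinuousFunction FourierTransform ContDiff
open scoped ComplexOrder

variable {H : Type*} [NormedAddCommGroup H] [InnerProductSpace ℂ H] [CompleteSpace H]

theorem smul_mem_vN (M : VonNeumannAlgebra H) (c : ℂ) {a : H →L[ℂ] H} (ha : a ∈ M) :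
    c • a ∈ M := M.toStarSubalgebra.smul_mem ha c

theorem integrable_filt (D : LineCalculus H) {k : ℝ → ℂ} (hk : Integrable k) (c : ℝ)
    (v : H →L[ℂ] H) (y : H) :
    Integrable fun w => k w • D.wave (c * w) (v (D.wave (-(c * w)) y)) := by
  refine Integrable.mono' (hk.norm.mul_const (‖v‖ * ‖y‖)) ?_ (Eventually.of_forall fun w => ?_)
  · refine hk.aestronglyMeasurable.smul (Continuous.aestronglyMeasurable ?_)
    have h1 : Continuous fun w : ℝ => v (D.wave (-(c * w)) y) :=
      v.continuous.comp ((continuous_wave D y).comp (by fun_prop))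
    have h2 : Continuous fun p : ℝ × H => D.wave p.1 p.2 := by
      refine continuous_prod_of_continuous_lipschitzWith' _ 1 (fun t => ?_)
        (fun x => continuous_wave D x)
      refine LipschitzWith.of_dist_le_mul fun x y => ?_
      simp [dist_eq_norm, ← map_sub]
    exact h2.comp (f := fun w : ℝ => (c * w, v (D.wave (-(c * w)) y))) (by fun_prop)
  · rw [norm_smul, norm_wave]
    gcongr
    simpa using v.le_opNorm (D.wave (-(c * w)) y)

theorem norm_filt_integral_le (D : LineCalculus H) {k : ℝ → ℂ} (hk : Integrable k) (c : ℝ)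
    (v : H →L[ℂ] H) (y : H) :
    ‖∫ w, k w • D.wave (c * w) (v (D.wave (-(c * w)) y))‖ ≤ (∫ w, ‖k w‖) * ‖v‖ * ‖y‖ := by
  rw [mul_assoc, ← integral_mul_const]
  refine norm_integral_le_of_norm_le (hk.norm.mul_const _) (Eventually.of_forall fun w => ?_)
  rw [norm_smul, norm_wave]
  gcongr
  simpa using v.le_opNorm (D.wave (-(c * w)) y)

/-- The filtered operator `∫ k(w) σ_{c w}(v) dw` (strong integral). -/
noncomputable def filt (D : LineCalculus H) {k : ℝ → ℂ} (hk : Integrable k) (c : ℝ)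
    (v : H →L[ℂ] H) : H →L[ℂ] H :=
  LinearMap.mkContinuous
    { toFun := fun y => ∫ w, k w • D.wave (c * w) (v (D.wave (-(c * w)) y))
      map_add' := fun x y => by
        rw [← integral_add (integrable_filt D hk c v x) (integrable_filt D hk c v y)]
        simp only [map_add, smul_add]
      map_smul' := fun a x => by
        rw [← integral_smul]
        simp only [map_smul, RingHom.id_apply, smul_comm a] }
    ((∫ w, ‖k w‖) * ‖v‖) (norm_filt_integral_le D hk c v)

theorem filt_apply (D : LineCalculus H) {k : ℝ → ℂ} (hk : Integrable k) (c : ℝ)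
    (v : H →L[ℂ] H) (y : H) :
    filt D hk c v y = ∫ w, k w • D.wave (c * w) (v (D.wave (-(c * w)) y)) := rfl

theorem norm_filt_le (D : LineCalculus H) {k : ℝ → ℂ} (hk : Integrable k) (c : ℝ)
    (v : H →L[ℂ] H) : ‖filt D hk c v‖ ≤ (∫ w, ‖k w‖) * ‖v‖ :=
  LinearMap.mkContinuous_norm_le _
    (mul_nonneg (integral_nonneg fun _ => norm_nonneg _) (norm_nonneg _)) _

theorem filt_mem (S : ModularDatum H) {k : ℝ → ℂ} (hk : Integrable k) (c : ℝ)
    {v : H →L[ℂ] H} (hv : v ∈ S.M) : filt S.D hk c v ∈ S.M := by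
  refine mem_of_commute S.M fun z hz => ?_
  ext y
  simp only [mul_apply_eq_comp, filt_apply]
  rw [← z.integral_comp_comm (integrable_filt S.D hk c v y)]
  refine integral_congr_ae (Eventually.of_forall fun w => ?_)
  have h1 := commute_of_mem S.M (S.flow_mem (c * w) v hv) hz y
  simp only [mul_apply_eq_comp] at h1
  simp only [map_smul, h1]

theorem exists_bump : ∃ β : ℝ → ℂ, Continuous β ∧ (∀ u, ‖β u‖ ≤ 1) ∧ (∀ u, |u| ≤ 1 → β u = 1) ∧
    (∀ u, 2 ≤ |u| → β u = 0) ∧ ∃ k : ℝ → ℂ, Integrable k ∧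
      ∀ u : ℝ, β u = ∫ w : ℝ, Complex.exp (((2 * Real.pi * (w * u) : ℝ) : ℂ) * Complex.I) * k w := by
  let b : ContDiffBump (0 : ℝ) := ⟨1, 2, one_pos, one_lt_two⟩
  have h1 : HasCompactSupport fun u => ((b u : ℝ) : ℂ) :=
    b.hasCompactSupport.comp_left (g := fun x : ℝ => (x : ℂ)) (by simp)
  have h2 : ContDiff ℝ ∞ fun u => ((b u : ℝ) : ℂ) :=
    Complex.ofRealCLM.contDiff.comp b.contDiff
  let f : SchwartzMap ℝ ℂ := h1.toSchwartzMap h2
  refine ⟨fun u => ((b u : ℝ) : ℂ), h2.continuous, fun u => ?_, fun u hu => ?_, fun u hu => ?_,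
    (𝓕 f : SchwartzMap ℝ ℂ), (𝓕 f : SchwartzMap ℝ ℂ).integrable, fun u => ?_⟩
  · rw [Complex.norm_real, Real.norm_of_nonneg b.nonneg]; exact b.le_one
  · have : b u = 1 := b.one_of_mem_closedBall (by simpa using hu)
    simp [this]
  · have : b u = 0 := b.zero_of_le_dist (by simpa using hu)
    simp [this]
  · have h3 := f.continuous.fourierInv_fourier_eq f.integrable
      (𝓕 f : SchwartzMap ℝ ℂ).integrable
    have h4 := congrFun h3 u
    rw [Real.fourierInv_eq'] at h4
    refine Eq.trans (b := f u) rfl ?_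
    rw [← h4]
    refine integral_congr_ae (Eventually.of_forall fun w => ?_)
    simp only [smul_eq_mul, SchwartzMap.fourier_coe, RCLike.inner_apply, conj_trivial,
      mul_comm u w]

theorem exists_filter : ∃ K : ℝ, 0 ≤ K ∧ ∀ (S : ModularDatum H) (s δ : ℝ), 0 < δ →
    ∃ f : ℝ →ᵇ ℂ, ‖f‖ ≤ 1 ∧ (∀ u ∈ Set.Icc (s - δ) (s + δ), f u = 1) ∧
      (∀ u, u ∉ Set.Icc (s - 2 * δ) (s + 2 * δ) → f u = 0) ∧
      ∀ v ∈ S.M, ∃ v' ∈ S.M, ‖v'‖ ≤ K * ‖v‖ ∧ v' S.vac = S.D.apply f (v S.vac) := by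
  obtain ⟨β, hβc, hβ1, hβ2, hβ3, k, hk, hβk⟩ := exists_bump
  refine ⟨∫ w, ‖k w‖, integral_nonneg fun _ => norm_nonneg _, fun S s δ hδ => ?_⟩
  let f : ℝ →ᵇ ℂ := BoundedContinuousFunction.ofNormedAddCommGroup (fun u => β ((u - s) / δ))
    (hβc.comp (by fun_prop)) 1 fun u => hβ1 _
  have hf : ∀ u, f u = β ((u - s) / δ) := fun u => rfl
  let c : ℝ := 2 * Real.pi / δ
  let k' : ℝ → ℂ := fun w => LineCalculus.character (c * w) (-s) * k w
  have hn : ∀ w, ‖k' w‖ = ‖k w‖ := fun w => by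
    simp only [k', norm_mul, norm_character_apply, one_mul]
  have hk' : Integrable k' := by
    refine Integrable.mono' hk.norm ?_ (Eventually.of_forall fun w => (hn w).le)
    refine AEStronglyMeasurable.mul (Continuous.aestronglyMeasurable ?_) hk.aestronglyMeasurable
    simp only [character_apply]
    fun_prop
  refine ⟨f, (BoundedContinuousFunction.norm_le zero_le_one).2 fun u => hβ1 _, fun u hu => ?_,
    fun u hu => ?_, fun v hv => ⟨filt S.D hk' c v, filt_mem S hk' c hv, ?_, ?_⟩⟩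
  · rw [hf, hβ2]
    rw [abs_div, abs_of_pos hδ, div_le_one hδ, abs_le]
    constructor <;> linarith [hu.1, hu.2]
  · rw [hf, hβ3]
    rw [abs_div, abs_of_pos hδ, le_div_iff₀ hδ]
    by_contra h
    push Not at h
    rw [abs_lt] at h
    exact hu ⟨by linarith [h.1], by linarith [h.2]⟩
  · simpa only [hn] using norm_filt_le S.D hk' c v
  · rw [filt_apply]
    simp only [wave_vac]
    refine integral_wave_eq_apply S.D k' hk' c f (fun u => ?_) _
    rw [hf, hβk]
    refine integral_congr_ae (Eventually.of_forall fun w => ?_)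
    simp only [k', character_apply]
    rw [mul_right_comm (Complex.exp _) (k w), ← Complex.exp_add]
    congr 2
    simp only [c]
    have : (δ : ℂ) ≠ 0 := by exact_mod_cast hδ.ne'
    push_cast
    field_simp
    ring

theorem exists_truncation (M : VonNeumannAlgebra H) {a : H →L[ℂ] H} (ha : a ∈ M) {C : ℝ}
    (hC : 0 < C) : ∃ v ∈ M, ‖v‖ ≤ C ∧ ∀ x, ‖a x - v x‖ ≤ ‖(star a * a) x‖ / C := by
  let r : ℝ := (C ^ 2)⁻¹
  have hr : 0 < r := by positivity
  let P : H →L[ℂ] H := 1 + (r : ℂ) • (star a * a)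
  have hPM : P ∈ M := add_mem (one_mem M) (smul_mem_vN M _ (mul_mem (star_mem ha) ha))
  have hP : IsUnit P := by
    refine CStarAlgebra.isUnit_of_le 1 ?_ isStrictlyPositive_one
    have : (0 : H →L[ℂ] H) ≤ (r : ℂ) • (star a * a) :=
      smul_nonneg (by exact_mod_cast hr.le) (star_mul_self_nonneg a)
    simpa [P] using this
  obtain ⟨u, hu⟩ := hP
  let Q : H →L[ℂ] H := (u⁻¹ : (H →L[ℂ] H)ˣ)
  have hPQ : ∀ x, P (Q x) = x := fun x => by
    rw [← mul_apply_eq_comp, ← hu]; simp [Q]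
  have hQP : ∀ x, Q (P x) = x := fun x => by
    rw [← mul_apply_eq_comp, ← hu]; simp [Q]
  have hQM : Q ∈ M := by
    refine mem_of_commute M fun z hz => ?_
    ext x
    simp only [mul_apply_eq_comp]
    conv_rhs => rw [← hPQ x, ← commute_of_mem M hPM hz, hQP]
  have hnorm : ‖a * Q‖ ≤ C := by
    refine ContinuousLinearMap.opNorm_le_bound _ hC.le fun y => ?_
    rw [mul_apply_eq_comp]
    set z := Q y with hz
    have h1 : y = z + (r : ℂ) • (star a * a) z := by
      conv_lhs => rw [← hPQ y]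
      simp [P, hz]
    have h2 : ‖y‖ ^ 2 = ‖z‖ ^ 2 + 2 * (r * ‖a z‖ ^ 2) + ‖(r : ℂ) • (star a * a) z‖ ^ 2 := by
      rw [h1, @norm_add_sq ℂ, inner_smul_right, mul_apply_eq_comp,
        ContinuousLinearMap.star_eq_adjoint, ContinuousLinearMap.adjoint_inner_right,
        inner_self_eq_norm_sq_to_K]
      congr 3
      simp [← Complex.ofReal_pow]
    have h3 : r * ‖a z‖ ^ 2 ≤ ‖y‖ ^ 2 := by
      have : 0 ≤ r * ‖a z‖ ^ 2 := by positivity
      nlinarith [sq_nonneg ‖z‖, sq_nonneg ‖(r : ℂ) • (star a * a) z‖]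
    have h4 : ‖a z‖ ^ 2 ≤ (C * ‖y‖) ^ 2 := by
      have : ‖a z‖ ^ 2 = C ^ 2 * (r * ‖a z‖ ^ 2) := by simp only [r]; field_simp
      rw [this, mul_pow]
      gcongr
    exact (pow_le_pow_iff_left₀ (norm_nonneg _) (by positivity) two_ne_zero).1 h4
  refine ⟨a * Q, mul_mem ha hQM, hnorm, fun x => ?_⟩
  have h5 : a x - (a * Q) x = (r : ℂ) • (a * Q) ((star a * a) x) := by
    have h6 : a x = (a * Q) (P x) := by rw [mul_apply_eq_comp, hQP]
    rw [h6]
    simp [P]
  rw [h5, norm_smul, Complex.norm_real, Real.norm_of_nonneg hr.le]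
  calc _ ≤ r * (C * ‖(star a * a) x‖) := by
        gcongr
        exact ((a * Q).le_opNorm _).trans (by gcongr)
    _ = _ := by simp only [r]; field_simp

end Crest.Agent.R84
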