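import Crest.Agent.R84.Filter

/-! The doubling iteration and the bounded recovery estimate. -/

set_option autoImplicit false

namespace Crest.Agent.R84

open Crest.OpAlg Filter MeasureTheory
open scoped Topology InnerProductSpace BoundedContinuousFunction

variable {H : Type*} [NormedAddCommGroup H] [InnerProductSpace ℂ H] [CompleteSpace H]

theorem inner_star_mul_self (a : H →L[ℂ] H) (x : H) :
    ⟪(star a * a) x, x⟫_ℂ = ((‖a x‖ ^ 2 : ℝ) : ℂ) := by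
  rw [mul_apply_eq_comp, ContinuousLinearMap.star_eq_adjoint,
    ContinuousLinearMap.adjoint_inner_left, inner_self_eq_norm_sq_to_K]
  push_cast
  rfl

theorem exists_time (S : ModularDatum H) (herg : S.Ergodic) {ω : Ultrafilter ℕ}
    (hω : (ω : Filter ℕ) ≤ atTop) {a : H →L[ℂ] H} (ha : a ∈ S.M) {ε : ℝ} (hε : 0 < ε) :
    ∃ t : ℝ, ‖(star a * a) S.vac + S.D.wave t ((star a * a) S.vac)‖ ^ 2 +
      2 * ‖star a (S.D.wave t (a S.vac))‖ ^ 2 + 2 * ‖star a (S.D.wave (-t) (a S.vac))‖ ^ 2 <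
      2 * ‖(star a * a) S.vac‖ ^ 2 + 2 * (‖a S.vac‖ ^ 2) ^ 2 +
        4 * (‖star a S.vac‖ ^ 2 * ‖a S.vac‖ ^ 2) + ε := by
  by_contra hcon
  push Not at hcon
  set y := (star a * a) S.vac with hy
  set x := a S.vac with hx
  let F₀ : ℝ →ᵇ ℂ := BoundedContinuousFunction.const ℝ ((‖y‖ ^ 2 : ℝ) : ℂ)
  let F₁ := coef S.D (star a * a) S.vac y
  let F₂ := coef S.D (a * star a) x x
  let F₃ : ℝ →ᵇ ℂ := F₂.compContinuous ⟨fun t => -t, continuous_neg⟩
  have h0 : meanL ω F₀ = ((‖y‖ ^ 2 : ℝ) : ℂ) := meanL_const hω _ _ fun _ => rfl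
  have hyx : ⟪y, S.vac⟫_ℂ = ((‖x‖ ^ 2 : ℝ) : ℂ) := inner_star_mul_self a _
  have h1 : meanL ω F₁ = (((‖x‖ ^ 2) ^ 2 : ℝ) : ℂ) := by
    rw [meanL_coef_of_mem S herg hω (mul_mem (star_mem ha) ha), ← inner_conj_symm S.vac y,
      hyx, Complex.conj_ofReal]
    push_cast
    ring
  have h2 : meanL ω F₂ = ((‖star a S.vac‖ ^ 2 * ‖x‖ ^ 2 : ℝ) : ℂ) := by
    have := inner_star_mul_self (star a) S.vac
    rw [star_star] at this
    rw [meanL_coef_of_mem S herg hω (mul_mem ha (star_mem ha)), this, inner_self_eq_norm_sq_to_K]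
    push_cast
    rfl
  have h3 : meanL ω F₃ = ((‖star a S.vac‖ ^ 2 * ‖x‖ ^ 2 : ℝ) : ℂ) := by
    rw [← h2]
    exact meanL_neg ω F₂ F₃ fun _ => rfl
  have h4 : ∀ t, F₂ t = ((‖star a (S.D.wave t x)‖ ^ 2 : ℝ) : ℂ) := fun t => by
    have := inner_star_mul_self (star a) (S.D.wave t x)
    rw [star_star] at this
    exact this
  have h5 := le_re_meanL hω ((2 : ℂ) • (F₀ + F₁ + F₂ + F₃)) _ fun t => (hcon t).trans (le_of_eq (by
    have h6 : F₃ t = F₂ (-t) := rfl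
    have h7 : F₁ t = ⟪y, S.D.wave t y⟫_ℂ := by simp [F₁, wave_vac, hy]
    have h8 : F₀ t = ((‖y‖ ^ 2 : ℝ) : ℂ) := rfl
    rw [@norm_add_sq ℂ, norm_wave]
    simp only [BoundedContinuousFunction.coe_smul, BoundedContinuousFunction.coe_add, Pi.add_apply,
      h6, h7, h8, h4, smul_eq_mul, Complex.mul_re, Complex.add_re, Complex.ofReal_re,
      Complex.re_ofNat, Complex.im_ofNat, zero_mul, sub_zero, RCLike.re_to_complex]
    ring))
  rw [map_smul, map_add, map_add, map_add, h0, h1, h2, h3] at h5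
  simp only [smul_eq_mul, Complex.mul_re, Complex.add_re, Complex.ofReal_re,
      Complex.re_ofNat, Complex.im_ofNat, zero_mul, sub_zero] at h5
  linarith

theorem star_flow (S : ModularDatum H) (t : ℝ) (a : H →L[ℂ] H) :
    star (S.flow t a) = S.flow t (star a) := by
  simp only [ModularDatum.flow, star_mul, star_wave, neg_neg, mul_assoc]

theorem flow_apply (S : ModularDatum H) (t : ℝ) (a : H →L[ℂ] H) (x : H) :
    S.flow t a x = S.D.wave t (a (S.D.wave (-t) x)) := rfl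

theorem flow_vac (S : ModularDatum H) (t : ℝ) (a : H →L[ℂ] H) :
    S.flow t a S.vac = S.D.wave t (a S.vac) := by rw [flow_apply, wave_vac]

theorem doubling (S : ModularDatum H) (herg : S.Ergodic) {ω : Ultrafilter ℕ}
    (hω : (ω : Filter ℕ) ≤ atTop) (E : H →L[ℂ] H)
    (hE : ∀ x s, ⟪E (S.D.wave s x), S.D.wave s x⟫_ℂ = ⟪E x, x⟫_ℂ) {p q : ℝ} (hpq : p ≤ q)
    {K : ℝ} (hK0 : 0 ≤ K) (hK : 2 + 4 * Real.exp q ≤ K ^ 2) (B : ℝ) {μ : ℝ} (hμ : 0 ≤ μ)
    {a : H →L[ℂ] H} (ha : a ∈ S.M) (hs : S.D.SupportedIn (Set.Icc p q) (a S.vac))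
    (hG : (B - 2 * μ * K) * ‖a S.vac‖ ^ 2 + μ * ‖(star a * a) S.vac‖ <
      (⟪E (a S.vac), a S.vac⟫_ℂ).re) :
    ∃ b ∈ S.M, S.D.SupportedIn (Set.Icc p q) (b S.vac) ∧
      (B - 2 * (4 / 3 * μ) * K) * ‖b S.vac‖ ^ 2 + (4 / 3 * μ) * ‖(star b * b) S.vac‖ <
        (⟪E (b S.vac), b S.vac⟫_ℂ).re := by
  set gap := (⟪E (a S.vac), a S.vac⟫_ℂ).re -
    ((B - 2 * μ * K) * ‖a S.vac‖ ^ 2 + μ * ‖(star a * a) S.vac‖) with hgap
  have hgap0 : 0 < gap := by linarith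
  set η := gap / (μ + 1) with hη
  have hη0 : 0 < η := by positivity
  have hμη : μ * η < gap := by
    rw [hη, mul_div_assoc', div_lt_iff₀ (by positivity)]; nlinarith
  obtain ⟨t, ht⟩ := exists_time S herg hω ha (ε := η ^ 2) (by positivity)
  have hβ := norm_star_vac_le S ha hpq hs
  set y := (star a * a) S.vac with hy
  set x := a S.vac with hx
  have hat : S.flow t a ∈ S.M := S.flow_mem t a ha
  set w := star a (S.D.wave t x) + S.D.wave t (star a (S.D.wave (-t) x)) with hw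
  have hp1 : (a + S.flow t a) S.vac = x + S.D.wave t x := by rw [add_apply, flow_vac]
  have hm1 : (a - S.flow t a) S.vac = x - S.D.wave t x := by rw [sub_apply, flow_vac]
  have hp2 : (star (a + S.flow t a) * (a + S.flow t a)) S.vac = (y + S.D.wave t y) + w := by
    rw [mul_apply_eq_comp, hp1, star_add, star_flow, add_apply, flow_apply]
    simp only [map_add, wave_neg_wave, hw, hy, hx, mul_apply_eq_comp]
    abel
  have hm2 : (star (a - S.flow t a) * (a - S.flow t a)) S.vac = (y + S.D.wave t y) - w := by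
    rw [mul_apply_eq_comp, hm1, star_sub, star_flow, sub_apply, flow_apply]
    simp only [map_sub, wave_neg_wave, hw, hy, hx, mul_apply_eq_comp]
    abel
  by_contra hcon
  push Not at hcon
  have hp := hcon _ (add_mem ha hat) (by rw [hp1]; exact supp_add _ hs (supp_wave _ hs t))
  have hm := hcon _ (sub_mem ha hat) (by rw [hm1]; exact supp_sub _ hs (supp_wave _ hs t))
  rw [hp1, hp2] at hp
  rw [hm1, hm2] at hm
  have e1 : (⟪E (x + S.D.wave t x), x + S.D.wave t x⟫_ℂ).re +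
      (⟪E (x - S.D.wave t x), x - S.D.wave t x⟫_ℂ).re = 4 * (⟪E x, x⟫_ℂ).re := by
    simp only [map_add, map_sub, inner_add_left, inner_add_right, inner_sub_left, inner_sub_right,
      hE, Complex.add_re, Complex.sub_re]
    ring
  have e2 : ‖x + S.D.wave t x‖ ^ 2 + ‖x - S.D.wave t x‖ ^ 2 = 4 * ‖x‖ ^ 2 := by
    have := parallelogram_law_with_norm ℂ x (S.D.wave t x)
    rw [norm_wave] at this
    nlinarith
  have e3 : ‖y + S.D.wave t y + w‖ ^ 2 + ‖y + S.D.wave t y - w‖ ^ 2 =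
      2 * ‖y + S.D.wave t y‖ ^ 2 + 2 * ‖w‖ ^ 2 := by
    have := parallelogram_law_with_norm ℂ (y + S.D.wave t y) w
    nlinarith
  have e4 : ‖w‖ ^ 2 ≤ 2 * ‖star a (S.D.wave t x)‖ ^ 2 + 2 * ‖star a (S.D.wave (-t) x)‖ ^ 2 := by
    have h1 : ‖w‖ ≤ ‖star a (S.D.wave t x)‖ + ‖star a (S.D.wave (-t) x)‖ := by
      refine (norm_add_le _ _).trans ?_
      rw [norm_wave]
    have h2 : ‖w‖ ^ 2 ≤ (‖star a (S.D.wave t x)‖ + ‖star a (S.D.wave (-t) x)‖) ^ 2 := by gcongr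
    nlinarith [sq_nonneg (‖star a (S.D.wave t x)‖ - ‖star a (S.D.wave (-t) x)‖)]
  have e5 : ‖star a S.vac‖ ^ 2 ≤ Real.exp q * ‖x‖ ^ 2 := by
    have h1 : ‖star a S.vac‖ ^ 2 ≤ (Real.exp (q / 2) * ‖x‖) ^ 2 := by gcongr
    have h2 : Real.exp (q / 2) ^ 2 = Real.exp q := by
      rw [← Real.exp_nat_mul]; congr 1; push_cast; ring
    rwa [mul_pow, h2] at h1
  set α := ‖x‖ ^ 2 with hα
  have hα0 : 0 ≤ α := by positivity
  set N := ‖y‖ with hN
  have hN0 : 0 ≤ N := norm_nonneg _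
  set Np := ‖y + S.D.wave t y + w‖ with hNp
  set Nm := ‖y + S.D.wave t y - w‖ with hNm
  have e6 : 2 * α ^ 2 + 4 * (‖star a S.vac‖ ^ 2 * α) ≤ (K * α) ^ 2 := by
    have h1 : ‖star a S.vac‖ ^ 2 * α ≤ (Real.exp q * α) * α := by gcongr
    have h2 : (2 + 4 * Real.exp q) * α ^ 2 ≤ K ^ 2 * α ^ 2 := by gcongr
    nlinarith
  have e7 : (Np + Nm) ^ 2 ≤ (3 * N + 2 * (K * α) + 2 * η) ^ 2 := by
    have h1 : (Np + Nm) ^ 2 ≤ 2 * (Np ^ 2 + Nm ^ 2) := by nlinarith [sq_nonneg (Np - Nm)]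
    have h2 : 0 ≤ K * α := by positivity
    have h3 : 0 ≤ N * (K * α) := by positivity
    have h4 : 0 ≤ N * η := by positivity
    have h5 : 0 ≤ (K * α) * η := by positivity
    nlinarith [sq_nonneg N]
  have e8 : Np + Nm ≤ 3 * N + 2 * (K * α) + 2 * η :=
    (pow_le_pow_iff_left₀ (by positivity) (by positivity) two_ne_zero).1 e7
  have e9 : μ * (Np + Nm) ≤ μ * (3 * N + 2 * (K * α) + 2 * η) := by gcongr
  have e10 : (B - 2 * (4 / 3 * μ) * K) * ‖x + S.D.wave t x‖ ^ 2 +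
      (B - 2 * (4 / 3 * μ) * K) * ‖x - S.D.wave t x‖ ^ 2 = (B - 2 * (4 / 3 * μ) * K) * (4 * α) := by
    rw [← mul_add, e2]
  nlinarith

theorem iterate_doubling (S : ModularDatum H) (herg : S.Ergodic) {ω : Ultrafilter ℕ}
    (hω : (ω : Filter ℕ) ≤ atTop) (E : H →L[ℂ] H)
    (hE : ∀ x s, ⟪E (S.D.wave s x), S.D.wave s x⟫_ℂ = ⟪E x, x⟫_ℂ) {p q : ℝ} (hpq : p ≤ q)
    {K : ℝ} (hK0 : 0 < K) (hK : 2 + 4 * Real.exp q ≤ K ^ 2) {B : ℝ} (hB : 0 < B)
    {a : H →L[ℂ] H} (ha : a ∈ S.M) (hs : S.D.SupportedIn (Set.Icc p q) (a S.vac))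
    (hG : B * ‖a S.vac‖ ^ 2 < (⟪E (a S.vac), a S.vac⟫_ℂ).re) :
    ∃ b ∈ S.M, S.D.SupportedIn (Set.Icc p q) (b S.vac) ∧
      B / (2 * K) * ‖(star b * b) S.vac‖ < (⟪E (b S.vac), b S.vac⟫_ℂ).re := by
  have key : ∀ (n : ℕ) (μ : ℝ), 0 ≤ μ → (∃ b ∈ S.M, S.D.SupportedIn (Set.Icc p q) (b S.vac) ∧
      (B - 2 * ((3 / 4) ^ n * μ) * K) * ‖b S.vac‖ ^ 2 +
        ((3 / 4) ^ n * μ) * ‖(star b * b) S.vac‖ < (⟪E (b S.vac), b S.vac⟫_ℂ).re) →
      ∃ b ∈ S.M, S.D.SupportedIn (Set.Icc p q) (b S.vac) ∧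
      (B - 2 * μ * K) * ‖b S.vac‖ ^ 2 + μ * ‖(star b * b) S.vac‖ <
        (⟪E (b S.vac), b S.vac⟫_ℂ).re := by
    intro n
    induction n with
    | zero => intro μ _ h; simpa using h
    | succ n ih =>
      rintro μ hμ ⟨b, hb, hbs, hbG⟩
      refine ih μ hμ ?_
      obtain ⟨b', hb', hbs', hbG'⟩ := doubling S herg hω E hE hpq hK0.le hK B
        (by positivity) hb hbs hbG
      refine ⟨b', hb', hbs', ?_⟩
      have : 4 / 3 * ((3 / 4 : ℝ) ^ (n + 1) * μ) = (3 / 4) ^ n * μ := by ring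
      rwa [this] at hbG'
  have h1 : Tendsto (fun n : ℕ => B * ‖a S.vac‖ ^ 2 +
      ((3 / 4 : ℝ) ^ n * (B / (2 * K))) * ‖(star a * a) S.vac‖) atTop
      (𝓝 (B * ‖a S.vac‖ ^ 2 + (0 * (B / (2 * K))) * ‖(star a * a) S.vac‖)) :=
    tendsto_const_nhds.add (((tendsto_pow_atTop_nhds_zero_of_lt_one (by norm_num)
      (by norm_num)).mul_const _).mul_const _)
  rw [zero_mul, zero_mul, add_zero] at h1
  obtain ⟨n, hn⟩ := (h1.eventually (gt_mem_nhds hG)).exists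
  obtain ⟨b, hb, hbs, hbG⟩ := key n (B / (2 * K)) (by positivity) ⟨a, ha, hs, by
    refine lt_of_le_of_lt ?_ hn
    have : 0 ≤ 2 * ((3 / 4 : ℝ) ^ n * (B / (2 * K))) * K * ‖a S.vac‖ ^ 2 := by positivity
    nlinarith⟩
  refine ⟨b, hb, hbs, ?_⟩
  have : B - 2 * (B / (2 * K)) * K = 0 := by field_simp; ring
  rwa [this, zero_mul, zero_add] at hbG

theorem recovery_one (S : ModularDatum H) (herg : S.Ergodic) {ω : Ultrafilter ℕ}
    (hω : (ω : Filter ℕ) ≤ atTop) (T : H →L[ℂ] H) (Q c : ℝ) (hc : 0 < c) :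
    ∃ C η : ℝ, 0 < η ∧ ∀ (s δ : ℝ) (h : H), 0 < δ → s + 2 * δ ≤ Q → ‖h‖ = 1 →
      S.D.SupportedIn (Set.Icc (s - δ) (s + δ)) h →
      c ≤ ultraMean ω (fun t : ℝ => ‖T (S.D.wave t h)‖ ^ 2) →
      ∃ v ∈ S.M, ‖v‖ ≤ C ∧ η ≤ ‖T (v S.vac)‖ ∧
        S.D.SupportedIn (Set.Icc (s - 4 * δ) (s + 4 * δ)) (v S.vac) := by
  obtain ⟨K₀, hK₀, hfil⟩ := exists_filter (H := H)
  set K := 2 + 4 * Real.exp Q with hKdef
  have hK2 : 2 ≤ K := by have := Real.exp_pos Q; linarith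
  have hK0 : 0 < K := by linarith
  set lam := (c / 2) / (2 * K) with hlam
  have hlam0 : 0 < lam := by positivity
  set r := Real.sqrt lam with hr
  have hr0 : 0 < r := Real.sqrt_pos.2 hlam0
  set C := 2 * ‖T‖ / r + 1 with hC
  have hC0 : 0 < C := by positivity
  refine ⟨K₀ * C, r / 2, by positivity, fun s δ h hδ hQ hh hsupp hmean => ?_⟩
  let E := meanOp S.D ω (star T * T)
  have hE : ∀ x s, ⟪E (S.D.wave s x), S.D.wave s x⟫_ℂ = ⟪E x, x⟫_ℂ :=
    fun x s => inner_meanOp_wave hω _ _ _ _ _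
  have hcoef : ∀ x t, coef S.D (star T * T) x x t = ((‖T (S.D.wave t x)‖ ^ 2 : ℝ) : ℂ) :=
    fun x t => inner_star_mul_self T _
  have hm : c ≤ (⟪E h, h⟫_ℂ).re := by
    rw [inner_meanOp, ← ultraMean_eq ω _ _ (hcoef h)]
    exact hmean
  obtain ⟨f, hf1, hf2, hf3, hf4⟩ := hfil S s δ hδ
  obtain ⟨g, hg1, hg2, hg3, hg4⟩ := hfil S s (2 * δ) (by positivity)
  have hopen : IsOpen {x : H | c / 2 * ‖S.D.apply f x‖ ^ 2 <
      (⟪E (S.D.apply f x), S.D.apply f x⟫_ℂ).re} :=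
    isOpen_lt (by fun_prop) (by fun_prop)
  obtain ⟨_, hx, ⟨a₀, rfl⟩⟩ := S.cyclic.inter_open_nonempty _ hopen ⟨h, by
    simp only [Set.mem_ofPred_eq]
    rw [apply_eq_self_of_supp S.D hsupp hf2, hh]
    linarith⟩
  obtain ⟨a, ha, -, haξ⟩ := hf4 a₀ a₀.2
  simp only [Set.mem_ofPred_eq] at hx
  rw [← haξ] at hx
  have hs : S.D.SupportedIn (Set.Icc (s - 2 * δ) (s + 2 * δ)) (a S.vac) := by
    rw [haξ]; exact supp_of_vanish _ f hf3 _
  have hKK : 2 + 4 * Real.exp (s + 2 * δ) ≤ K ^ 2 := by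
    have : Real.exp (s + 2 * δ) ≤ Real.exp Q := Real.exp_le_exp.2 hQ
    nlinarith
  obtain ⟨b, hb, hbs, hbG⟩ := iterate_doubling S herg hω E hE (by linarith) hK0 hKK
    (by positivity) ha hs hx
  obtain ⟨t, ht⟩ : ∃ t, lam * ‖(star b * b) S.vac‖ < ‖T (S.D.wave t (b S.vac))‖ ^ 2 := by
    by_contra hcon
    push Not at hcon
    have := re_meanL_le hω (coef S.D (star T * T) (b S.vac) (b S.vac)) _ fun t => by
      rw [hcoef, Complex.ofReal_re]; exact hcon t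
    rw [← inner_meanOp] at this
    exact absurd hbG (not_lt.2 this)
  set N := ‖(star b * b) S.vac‖ with hN
  have hN0 : 0 < N := by
    refine lt_of_le_of_ne (norm_nonneg _) fun h0 => ?_
    have h1 := inner_star_mul_self b S.vac
    rw [norm_eq_zero.1 h0.symm, inner_zero_left] at h1
    have h2 : ‖b S.vac‖ ^ 2 = 0 := by exact_mod_cast h1.symm
    have h3 : b S.vac = 0 := by simpa using h2
    rw [h3, ← h0] at ht
    simp at ht
  set ν := (Real.sqrt N)⁻¹ with hν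
  have hν0 : 0 < ν := by positivity
  have hν2 : ν ^ 2 * N = 1 := by
    rw [hν, inv_pow, Real.sq_sqrt hN0.le, inv_mul_cancel₀ hN0.ne']
  let a' : H →L[ℂ] H := (ν : ℂ) • S.flow t b
  have ha' : a' ∈ S.M := smul_mem_vN _ _ (S.flow_mem t b hb)
  have ha'ξ : a' S.vac = (ν : ℂ) • S.D.wave t (b S.vac) := by
    simp only [a', smul_apply, flow_vac]
  have ha's : S.D.SupportedIn (Set.Icc (s - 2 * δ) (s + 2 * δ)) (a' S.vac) := by
    rw [ha'ξ]; exact supp_smul _ (supp_wave _ hbs t) _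
  have ha'N : ‖(star a' * a') S.vac‖ = 1 := by
    rw [mul_apply_eq_comp, ha'ξ]
    simp only [a', star_smul, star_flow, smul_apply, map_smul, flow_apply, wave_neg_wave,
      norm_smul, norm_star, norm_wave, Complex.norm_real, Real.norm_of_nonneg hν0.le]
    rw [← hν2, hN, mul_apply_eq_comp]
    ring
  have hTa' : r ≤ ‖T (a' S.vac)‖ := by
    rw [hr, Real.sqrt_le_left (norm_nonneg _), ha'ξ, map_smul, norm_smul, Complex.norm_real,
      Real.norm_of_nonneg hν0.le, mul_pow]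
    calc lam = ν ^ 2 * (lam * N) := by rw [mul_left_comm, hν2, mul_one]
      _ ≤ _ := by gcongr
  obtain ⟨v, hv, hvC, hva⟩ := exists_truncation S.M ha' hC0
  obtain ⟨v', hv', hv'C, hv'ξ⟩ := hg4 v hv
  refine ⟨v', hv', hv'C.trans (by gcongr), ?_, ?_⟩
  · have h1 : ‖a' S.vac - v' S.vac‖ ≤ 1 / C := by
      rw [hv'ξ, ← apply_eq_self_of_supp S.D ha's hg2, ← map_sub]
      refine (norm_apply_apply_le _ _ _).trans ?_
      have := hva S.vac
      rw [ha'N] at this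
      calc _ ≤ 1 * (1 / C) := by gcongr
        _ = _ := one_mul _
    have h2 : ‖T (a' S.vac) - T (v' S.vac)‖ ≤ r / 2 := by
      rw [← map_sub]
      refine (T.le_opNorm _).trans ?_
      calc _ ≤ ‖T‖ * (1 / C) := by gcongr
        _ ≤ r / 2 := by
          rw [mul_one_div, div_le_iff₀ hC0, hC]
          have : r / 2 * (2 * ‖T‖ / r + 1) = ‖T‖ + r / 2 := by field_simp
          rw [this]
          linarith
    have h3 := norm_sub_norm_le (T (a' S.vac)) (T (v' S.vac))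
    linarith
  · rw [hv'ξ]
    refine supp_of_vanish _ g (fun u hu => hg3 u ?_) _
    have : 2 * (2 * δ) = 4 * δ := by ring
    rwa [this]

end Crest.Agent.R84
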