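import Crest.Agent.R84.Vac

/-! The invariant mean attached to a free ultrafilter, and the averaged operator. -/

set_option autoImplicit false

namespace Crest.Agent.R84

open Crest.OpAlg Filter MeasureTheory
open scoped Topology InnerProductSpace BoundedContinuousFunction

/-- Window average of a complex function. -/
noncomputable def cavg (f : ℝ → ℂ) (k : ℕ) : ℂ := ⨍ t in Set.Icc (-(k : ℝ)) (k : ℝ), f t

theorem cavg_eq (f : ℝ → ℂ) (k : ℕ) :
    cavg f k = ((2 * (k : ℝ))⁻¹ : ℝ) • ∫ t in (-(k : ℝ))..(k : ℝ), f t := by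
  have hk : -(k : ℝ) ≤ k := by linarith [Nat.cast_nonneg (α := ℝ) k]
  rw [cavg, setAverage_eq, intervalIntegral.integral_of_le hk, integral_Icc_eq_integral_Ioc,
    Real.volume_real_Icc_of_le hk]
  congr 2
  ring

theorem norm_cavg_le (f : ℝ →ᵇ ℂ) (k : ℕ) : ‖cavg f k‖ ≤ ‖f‖ := by
  rw [cavg_eq, norm_smul]
  rcases Nat.eq_zero_or_pos k with rfl | hk
  · simp
  · have h1 : ‖∫ t in (-(k : ℝ))..(k : ℝ), f t‖ ≤ ‖f‖ * |(k : ℝ) - -(k : ℝ)| :=
      intervalIntegral.norm_integral_le_of_norm_le_const fun t _ => f.norm_coe_le_norm t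
    have hk' : (0 : ℝ) < k := by exact_mod_cast hk
    rw [abs_of_pos (by linarith)] at h1
    rw [Real.norm_of_nonneg (by positivity)]
    calc _ ≤ (2 * (k : ℝ))⁻¹ * (‖f‖ * ((k : ℝ) - -(k : ℝ))) := by gcongr
      _ = ‖f‖ := by field_simp; ring

theorem exists_tendsto_cavg (ω : Ultrafilter ℕ) (f : ℝ →ᵇ ℂ) :
    ∃ L, Tendsto (cavg f) ω (𝓝 L) := by
  have h : (↑(ω.map (cavg f)) : Filter ℂ) ≤ 𝓟 (Metric.closedBall 0 ‖f‖) := by
    rw [le_principal_iff]
    exact Filter.mem_map.2 (Eventually.of_forall fun k => by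
      simpa using norm_cavg_le f k)
  obtain ⟨L, -, hL⟩ := (isCompact_closedBall (0 : ℂ) ‖f‖).ultrafilter_le_nhds _ h
  exact ⟨L, hL⟩

theorem tendsto_cavg_limUnder (ω : Ultrafilter ℕ) (f : ℝ →ᵇ ℂ) :
    Tendsto (cavg f) ω (𝓝 (limUnder (ω : Filter ℕ) (cavg f))) :=
  tendsto_nhds_limUnder (exists_tendsto_cavg ω f)

theorem cavg_add (f g : ℝ →ᵇ ℂ) (k : ℕ) : cavg (f + g) k = cavg f k + cavg g k := by
  simp only [cavg_eq, Pi.add_apply]
  rw [intervalIntegral.integral_add (f.continuous.intervalIntegrable _ _)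
    (g.continuous.intervalIntegrable _ _), smul_add]

theorem cavg_smul (c : ℂ) (f : ℝ → ℂ) (k : ℕ) : cavg (c • f) k = c * cavg f k := by
  simp only [cavg_eq, Pi.smul_apply, smul_eq_mul]
  rw [intervalIntegral.integral_const_mul]
  simp only [Complex.real_smul]
  ring

/-- The invariant mean as a continuous linear functional. -/
noncomputable def meanL (ω : Ultrafilter ℕ) : (ℝ →ᵇ ℂ) →L[ℂ] ℂ :=
  LinearMap.mkContinuous
    { toFun := fun f => limUnder (ω : Filter ℕ) (cavg f)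
      map_add' := fun f g => by
        refine tendsto_nhds_unique (tendsto_cavg_limUnder ω (f + g)) ?_
        refine ((tendsto_cavg_limUnder ω f).add (tendsto_cavg_limUnder ω g)).congr fun k => ?_
        exact (cavg_add f g k).symm
      map_smul' := fun c f => by
        refine tendsto_nhds_unique (tendsto_cavg_limUnder ω (c • f)) ?_
        refine ((tendsto_cavg_limUnder ω f).const_mul c).congr fun k => ?_
        exact (cavg_smul c f k).symm } 1 fun f => by
      rw [one_mul]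
      exact le_of_tendsto' (tendsto_cavg_limUnder ω f).norm fun k => norm_cavg_le f k

theorem tendsto_meanL (ω : Ultrafilter ℕ) (f : ℝ →ᵇ ℂ) :
    Tendsto (cavg f) ω (𝓝 (meanL ω f)) := tendsto_cavg_limUnder ω f

theorem norm_meanL_le (ω : Ultrafilter ℕ) (f : ℝ →ᵇ ℂ) : ‖meanL ω f‖ ≤ ‖f‖ :=
  le_of_tendsto' (tendsto_meanL ω f).norm fun k => norm_cavg_le f k

theorem meanL_const {ω : Ultrafilter ℕ} (hω : (ω : Filter ℕ) ≤ atTop) (f : ℝ →ᵇ ℂ) (c : ℂ)
    (hf : ∀ t, f t = c) : meanL ω f = c := by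
  refine tendsto_nhds_unique (tendsto_meanL ω f) ?_
  refine (tendsto_const_nhds (x := c)).congr' (hω ?_)
  filter_upwards [eventually_gt_atTop 0] with k hk
  have hk' : (k : ℂ) ≠ 0 := by exact_mod_cast hk.ne'
  simp only [cavg_eq, hf, intervalIntegral.integral_const, Complex.real_smul]
  push_cast
  field_simp
  ring

theorem meanL_neg (ω : Ultrafilter ℕ) (f g : ℝ →ᵇ ℂ) (h : ∀ t, g t = f (-t)) :
    meanL ω g = meanL ω f := by
  refine tendsto_nhds_unique (tendsto_meanL ω g) ((tendsto_meanL ω f).congr fun k => ?_)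
  simp only [cavg_eq, h, intervalIntegral.integral_comp_neg, neg_neg]

theorem meanL_shift {ω : Ultrafilter ℕ} (hω : (ω : Filter ℕ) ≤ atTop) (f g : ℝ →ᵇ ℂ) (s : ℝ)
    (h : ∀ t, g t = f (t + s)) : meanL ω g = meanL ω f := by
  have h1 : Tendsto (fun k : ℕ => cavg g k - cavg f k) atTop (𝓝 0) := by
    have h2 : Tendsto (fun k : ℕ => (‖f‖ * |s|) / (k : ℝ)) atTop (𝓝 0) :=
      tendsto_const_div_atTop_nhds_zero_nat _
    refine squeeze_zero_norm' ?_ h2
    filter_upwards [eventually_gt_atTop 0] with k hk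
    have hk' : (0 : ℝ) < k := by exact_mod_cast hk
    have hi : ∀ a b : ℝ, IntervalIntegrable f volume a b :=
      fun a b => f.continuous.intervalIntegrable _ _
    have h3 : (∫ t in (-(k : ℝ) + s)..((k : ℝ) + s), f t) - ∫ t in (-(k : ℝ))..(k : ℝ), f t =
        (∫ t in (k : ℝ)..((k : ℝ) + s), f t) - ∫ t in (-(k : ℝ))..(-(k : ℝ) + s), f t :=
      intervalIntegral.integral_interval_sub_interval_comm' (hi _ _) (hi _ _) (hi _ _)
    simp only [cavg_eq, h, intervalIntegral.integral_comp_add_right, ← smul_sub, h3, norm_smul]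
    have h4 : ∀ a : ℝ, ‖∫ t in a..(a + s), f t‖ ≤ ‖f‖ * |s| := fun a => by
      have := intervalIntegral.norm_integral_le_of_norm_le_const (a := a) (b := a + s)
        (f := f) (C := ‖f‖) fun t _ => f.norm_coe_le_norm t
      simpa using this
    rw [Real.norm_of_nonneg (by positivity)]
    calc _ ≤ (2 * (k : ℝ))⁻¹ * (‖f‖ * |s| + ‖f‖ * |s|) := by
          gcongr
          exact (norm_sub_le _ _).trans (add_le_add (h4 _) (h4 _))
      _ = _ := by field_simp; ring
  have h5 := (tendsto_meanL ω g).sub (tendsto_meanL ω f)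
  exact sub_eq_zero.1 (tendsto_nhds_unique h5 (h1.mono_left hω))

theorem re_cavg_nonneg (f : ℝ →ᵇ ℂ) (h : ∀ t, 0 ≤ (f t).re) (k : ℕ) : 0 ≤ (cavg f k).re := by
  have hk : -(k : ℝ) ≤ k := by linarith [Nat.cast_nonneg (α := ℝ) k]
  rw [cavg_eq, Complex.smul_re]
  refine mul_nonneg (by positivity) ?_
  have := (Complex.reCLM.intervalIntegral_comp_comm
    (f.continuous.intervalIntegrable (μ := volume) (-(k : ℝ)) k))
  simp only [Complex.reCLM_apply] at this
  rw [← this]
  exact intervalIntegral.integral_nonneg hk fun t _ => h t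

theorem re_meanL_nonneg (ω : Ultrafilter ℕ) (f : ℝ →ᵇ ℂ) (h : ∀ t, 0 ≤ (f t).re) :
    0 ≤ (meanL ω f).re :=
  ge_of_tendsto' ((Complex.continuous_re.tendsto _).comp (tendsto_meanL ω f))
    fun k => re_cavg_nonneg f h k

theorem le_re_meanL {ω : Ultrafilter ℕ} (hω : (ω : Filter ℕ) ≤ atTop) (f : ℝ →ᵇ ℂ) (c : ℝ)
    (h : ∀ t, c ≤ (f t).re) : c ≤ (meanL ω f).re := by
  have h1 := re_meanL_nonneg ω (f - BoundedContinuousFunction.const ℝ (c : ℂ)) fun t => by
    simpa using h t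
  rw [map_sub, meanL_const hω (BoundedContinuousFunction.const ℝ (c : ℂ)) c fun _ => rfl] at h1
  simpa using h1

theorem re_meanL_le {ω : Ultrafilter ℕ} (hω : (ω : Filter ℕ) ≤ atTop) (f : ℝ →ᵇ ℂ) (c : ℝ)
    (h : ∀ t, (f t).re ≤ c) : (meanL ω f).re ≤ c := by
  have h1 := le_re_meanL hω (-f) (-c) fun t => by simpa using h t
  simpa using h1

theorem ultraMean_eq (ω : Ultrafilter ℕ) (g : ℝ → ℝ) (f : ℝ →ᵇ ℂ) (h : ∀ t, f t = (g t : ℂ)) :
    ultraMean ω g = (meanL ω f).re := by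
  have h1 : Tendsto (windowMean g) ω (𝓝 (meanL ω f).re) := by
    refine ((Complex.continuous_re.tendsto _).comp (tendsto_meanL ω f)).congr fun k => ?_
    simp only [Function.comp_apply, cavg, windowMean, h, setAverage_eq,
      Complex.smul_re]
    congr 1
    have : ∫ t in Set.Icc (-(k : ℝ)) (k : ℝ), (g t : ℂ) =
        ((∫ t in Set.Icc (-(k : ℝ)) (k : ℝ), g t : ℝ) : ℂ) := integral_ofReal
    rw [this, Complex.ofReal_re]
  exact h1.limUnder_eq

variable {H : Type*} [NormedAddCommGroup H] [InnerProductSpace ℂ H] [CompleteSpace H]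

/-- The matrix coefficient `t ↦ ⟪b U_t x, U_t y⟫`. -/
noncomputable def coef (D : LineCalculus H) (b : H →L[ℂ] H) (x y : H) : ℝ →ᵇ ℂ :=
  BoundedContinuousFunction.ofNormedAddCommGroup
    (fun t => ⟪b (D.wave t x), D.wave t y⟫_ℂ)
    ((b.continuous.comp (continuous_wave D x)).inner (continuous_wave D y))
    (‖b‖ * ‖x‖ * ‖y‖) fun t => by
      refine (norm_inner_le_norm _ _).trans ?_
      rw [norm_wave]
      gcongr
      simpa using b.le_opNorm (D.wave t x)

@[simp] theorem coef_apply (D : LineCalculus H) (b : H →L[ℂ] H) (x y : H) (t : ℝ) :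
    coef D b x y t = ⟪b (D.wave t x), D.wave t y⟫_ℂ := rfl

theorem norm_coef_le (D : LineCalculus H) (b : H →L[ℂ] H) (x y : H) :
    ‖coef D b x y‖ ≤ ‖b‖ * ‖x‖ * ‖y‖ :=
  BoundedContinuousFunction.norm_ofNormedAddCommGroup_le _ (by positivity) _

/-- The averaged operator: the weak `ω`-mean of `U_{-t} b U_t`. -/
noncomputable def meanOp (D : LineCalculus H) (ω : Ultrafilter ℕ) (b : H →L[ℂ] H) : H →L[ℂ] H :=
  InnerProductSpace.continuousLinearMapOfBilin
    (LinearMap.mkContinuous₂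
      (LinearMap.mk₂'ₛₗ (starRingEnd ℂ) (RingHom.id ℂ) (fun x y => meanL ω (coef D b x y))
        (fun x x' y => by
          rw [← map_add]; congr 1; ext t; simp)
        (fun c x y => by
          rw [← map_smul]; congr 1; ext t; simp [mul_comm])
        (fun x y y' => by
          rw [← map_add]; congr 1; ext t; simp)
        (fun c x y => by
          rw [← map_smul]; congr 1; ext t; simp))
      ‖b‖ fun x y => (norm_meanL_le ω _).trans (norm_coef_le D b x y))

theorem inner_meanOp (D : LineCalculus H) (ω : Ultrafilter ℕ) (b : H →L[ℂ] H) (x y : H) :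
    ⟪meanOp D ω b x, y⟫_ℂ = meanL ω (coef D b x y) := by
  rw [meanOp, InnerProductSpace.continuousLinearMapOfBilin_apply]
  rfl

theorem inner_meanOp_wave {ω : Ultrafilter ℕ} (hω : (ω : Filter ℕ) ≤ atTop)
    (D : LineCalculus H) (b : H →L[ℂ] H) (x y : H) (s : ℝ) :
    ⟪meanOp D ω b (D.wave s x), D.wave s y⟫_ℂ = ⟪meanOp D ω b x, y⟫_ℂ := by
  rw [inner_meanOp, inner_meanOp]
  refine meanL_shift hω _ _ s fun t => ?_
  simp only [coef_apply, wave_add_apply]

theorem mem_of_commute (M : VonNeumannAlgebra H) {a : H →L[ℂ] H}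
    (h : ∀ z ∈ M.commutant, z * a = a * z) : a ∈ M := by
  rw [← M.commutant_commutant, VonNeumannAlgebra.mem_commutant_iff]
  exact h

theorem commute_of_mem (M : VonNeumannAlgebra H) {a z : H →L[ℂ] H} (ha : a ∈ M)
    (hz : z ∈ M.commutant) (x : H) : a (z x) = z (a x) := by
  have := (VonNeumannAlgebra.mem_commutant_iff.1 hz) a ha
  exact congrArg (fun L : H →L[ℂ] H => L x) this

theorem meanOp_mem (S : ModularDatum H) (ω : Ultrafilter ℕ) {b : H →L[ℂ] H} (hb : b ∈ S.M) :
    meanOp S.D ω b ∈ S.M := by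
  refine mem_of_commute S.M fun z hz => ?_
  ext x
  refine ext_inner_right ℂ fun y => ?_
  simp only [mul_apply_eq_comp]
  rw [← ContinuousLinearMap.adjoint_inner_right, inner_meanOp, inner_meanOp]
  congr 1
  ext t
  have h1 := commute_of_mem S.M (S.flow_mem (-t) b hb) hz x
  simp only [neg_neg, mul_apply_eq_comp] at h1
  have h2 : ∀ p q : H, ⟪p, S.D.wave t q⟫_ℂ = ⟪S.D.wave (-t) p, q⟫_ℂ := fun p q => by
    rw [inner_wave_left, neg_neg]
  simp only [coef_apply, h2, h1, ContinuousLinearMap.adjoint_inner_right]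

/-- Ergodic theorem in the form needed. -/
theorem meanL_coef_of_mem (S : ModularDatum H) (herg : S.Ergodic) {ω : Ultrafilter ℕ}
    (hω : (ω : Filter ℕ) ≤ atTop) {b : H →L[ℂ] H} (hb : b ∈ S.M) (x y : H) :
    meanL ω (coef S.D b x y) = ⟪b S.vac, S.vac⟫_ℂ * ⟪x, y⟫_ℂ := by
  obtain ⟨c, hc⟩ := herg _ (meanOp_mem S ω hb) fun s => by
    ext x
    refine ext_inner_right ℂ fun y => ?_
    simp only [ModularDatum.flow, mul_apply_eq_comp]
    rw [inner_wave_left, inner_meanOp_wave hω]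
  have h1 : ∀ x y : H, meanL ω (coef S.D b x y) = starRingEnd ℂ c * ⟪x, y⟫_ℂ := fun x y => by
    rw [← inner_meanOp, hc]
    simp [mul_comm]
  have h2 := h1 S.vac S.vac
  rw [meanL_const hω _ ⟪b S.vac, S.vac⟫_ℂ (fun t => by simp [wave_vac]),
    inner_self_eq_norm_sq_to_K, S.norm_vac] at h2
  rw [h1, h2]
  simp

end Crest.Agent.R84
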