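import Crest.Agent.R84.Calc

/-! The vacuum vector is fixed by the modular group; adjoint bound on spectral bands. -/

set_option autoImplicit false

namespace Crest.Agent.R84

open Crest.OpAlg Filter MeasureTheory
open scoped Topology InnerProductSpace BoundedContinuousFunction

variable {H : Type*} [NormedAddCommGroup H] [InnerProductSpace ℂ H] [CompleteSpace H]

omit [CompleteSpace H] in
theorem inner_conjIso (J : H ≃ₗᵢ⋆[ℂ] H) (x y : H) : ⟪J x, J y⟫_ℂ = ⟪y, x⟫_ℂ := by
  rw [← inner_conj_symm y x, inner_eq_sum_norm_sq_div_four, inner_eq_sum_norm_sq_div_four]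
  have h1 : J x + J y = J (x + y) := (map_add J x y).symm
  have h2 : J x - J y = J (x - y) := (map_sub J x y).symm
  have h3 : J x - (RCLike.I : ℂ) • J y = J (x + (RCLike.I : ℂ) • y) := by
    rw [map_add, LinearIsometryEquiv.map_smulₛₗ]; simp [sub_eq_add_neg]
  have h4 : J x + (RCLike.I : ℂ) • J y = J (x - (RCLike.I : ℂ) • y) := by
    rw [map_sub, LinearIsometryEquiv.map_smulₛₗ]; simp [sub_eq_add_neg]
  rw [h1, h2, h3, h4]
  simp only [LinearIsometryEquiv.norm_map]
  simp only [map_div₀, map_add, map_sub, map_pow, RCLike.conj_ofReal, map_mul, RCLike.conj_I,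
    map_ofNat]
  ring

theorem hasCompactSupport_cut (n : ℕ) : HasCompactSupport (cut n : ℝ → ℂ) := by
  refine HasCompactSupport.intro (K := Set.Icc (-((n : ℝ) + 1)) (n + 1)) isCompact_Icc
    fun u hu => ?_
  rw [cut_apply, cutR_eq_zero]
  · simp
  · by_contra h
    push Not at h
    exact hu (abs_le.1 h.le)

/-- A continuous function multiplied by the cut-off, as a bounded continuous function. -/
noncomputable def mulCut (n : ℕ) (φ : ℝ → ℂ) (hφ : Continuous φ) : ℝ →ᵇ ℂ :=
  ofCompactSupport (fun u => φ u * cut n u) (hφ.mul (cut n).continuous)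
    (hasCompactSupport_cut n).mul_left

@[simp] theorem mulCut_apply (n : ℕ) (φ : ℝ → ℂ) (hφ : Continuous φ) (u : ℝ) :
    mulCut n φ hφ u = φ u * cut n u := rfl

theorem norm_sq_apply (D : LineCalculus H) (f : ℝ →ᵇ ℂ) (x : H) :
    ((‖D.apply f x‖ ^ 2 : ℝ) : ℂ) = ⟪x, D.apply (star f * f) x⟫_ℂ := by
  rw [apply_mul_apply, map_star, ContinuousLinearMap.star_eq_adjoint,
    ContinuousLinearMap.adjoint_inner_right, inner_self_eq_norm_sq_to_K]
  push_cast
  rfl

theorem norm_apply_le_of_pointwise (D : LineCalculus H) (F h : ℝ →ᵇ ℂ) (C : ℝ) (hC : 0 ≤ C)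
    (hle : ∀ u, ‖F u‖ ≤ C * ‖h u‖) (x : H) : ‖D.apply F x‖ ≤ C * ‖D.apply h x‖ := by
  let g : ℝ →ᵇ ℂ := BoundedContinuousFunction.ofNormedAddCommGroup
    (fun u => ((Real.sqrt ((C * ‖h u‖) ^ 2 - ‖F u‖ ^ 2) : ℝ) : ℂ)) (by fun_prop) (C * ‖h‖)
    (fun u => by
      rw [Complex.norm_real, Real.norm_of_nonneg (Real.sqrt_nonneg _)]
      refine Real.sqrt_le_iff.2 ⟨by positivity, ?_⟩
      have h1 : C * ‖h u‖ ≤ C * ‖h‖ := by gcongr; exact h.norm_coe_le_norm u
      have h2 : (C * ‖h u‖) ^ 2 ≤ (C * ‖h‖) ^ 2 := by gcongr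
      nlinarith [sq_nonneg ‖F u‖])
  have hg : star F * F + star g * g = ((C ^ 2 : ℝ) : ℂ) • (star h * h) := by
    ext u
    have h1 : 0 ≤ (C * ‖h u‖) ^ 2 - ‖F u‖ ^ 2 := by
      have := hle u
      have h2 : ‖F u‖ ^ 2 ≤ (C * ‖h u‖) ^ 2 := by gcongr
      linarith
    have h3 : g u = ((Real.sqrt ((C * ‖h u‖) ^ 2 - ‖F u‖ ^ 2) : ℝ) : ℂ) := rfl
    simp only [BoundedContinuousFunction.coe_add, BoundedContinuousFunction.coe_mul,
      BoundedContinuousFunction.coe_star, Pi.add_apply, Pi.mul_apply, Pi.star_apply,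
      BoundedContinuousFunction.coe_smul, smul_eq_mul, Complex.star_def, h3,
      Complex.conj_ofReal, Complex.conj_mul']
    rw [← Complex.ofReal_mul, Real.mul_self_sqrt h1]
    push_cast
    ring
  have h4 : ‖D.apply F x‖ ^ 2 + ‖D.apply g x‖ ^ 2 = C ^ 2 * ‖D.apply h x‖ ^ 2 := by
    have : ((‖D.apply F x‖ ^ 2 + ‖D.apply g x‖ ^ 2 : ℝ) : ℂ) =
        ((C ^ 2 * ‖D.apply h x‖ ^ 2 : ℝ) : ℂ) := by
      rw [Complex.ofReal_add, Complex.ofReal_mul, norm_sq_apply, norm_sq_apply, norm_sq_apply,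
        ← inner_add_right, ← add_apply, ← map_add, hg, map_smul, smul_apply, inner_smul_right]
    exact_mod_cast this
  have h5 : ‖D.apply F x‖ ^ 2 ≤ (C * ‖D.apply h x‖) ^ 2 := by
    nlinarith [sq_nonneg ‖D.apply g x‖]
  exact (pow_le_pow_iff_left₀ (norm_nonneg _) (by positivity) two_ne_zero).1 h5

theorem halfExp_of_mem (S : ModularDatum H) {a : H →L[ℂ] H} (ha : a ∈ S.M) :
    S.D.HalfExp (a S.vac) (S.J (star a S.vac)) := by
  have : (a S.vac, star a S.vac) ∈ closure (Set.range fun a : S.M =>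
      ((a : H →L[ℂ] H) S.vac, star (a : H →L[ℂ] H) S.vac)) :=
    subset_closure ⟨⟨a, ha⟩, rfl⟩
  rw [S.tomita] at this
  exact this

theorem inner_of_halfExp (S : ModularDatum H) {p q : H} (h : S.D.HalfExp p (S.J q)) :
    ⟪S.vac, p⟫_ℂ = ⟪q, S.vac⟫_ℂ := by
  have h1 : (p, q) ∈ closure (Set.range fun a : S.M =>
      ((a : H →L[ℂ] H) S.vac, star (a : H →L[ℂ] H) S.vac)) := by
    rw [S.tomita]; exact h
  have h2 : IsClosed {z : H × H | ⟪S.vac, z.1⟫_ℂ = ⟪z.2, S.vac⟫_ℂ} :=
    isClosed_eq (by fun_prop) (by fun_prop)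
  refine (closure_minimal ?_ h2 h1 : _)
  rintro _ ⟨a, rfl⟩
  simp only [Set.mem_ofPred_eq]
  rw [ContinuousLinearMap.star_eq_adjoint, ContinuousLinearMap.adjoint_inner_left]

theorem apply_vac_eq (S : ModularDatum H) (f₀ f₁ f₂ : ℝ →ᵇ ℂ)
    (h₁ : ∀ u : ℝ, f₁ u = f₀ u * ((Real.exp (u / 2) : ℝ) : ℂ))
    (h₂ : ∀ u : ℝ, f₂ u = f₁ u * ((Real.exp (u / 2) : ℝ) : ℂ)) :
    S.D.apply f₀ S.vac = S.D.apply f₂ S.vac := by
  have h3 : S.D.HalfExp S.vac (S.J S.vac) := by
    simpa using halfExp_of_mem S (one_mem S.M)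
  rw [← h3 f₁ f₂ h₂]
  refine ext_inner_right ℂ fun x => ?_
  have h4 : S.D.HalfExp (S.D.apply (star f₀) x) (S.J (S.J (S.D.apply (star f₁) x))) := by
    intro f g hfg
    rw [S.J_J, ← apply_mul_apply, ← apply_mul_apply]
    congr 2
    ext u
    simp only [BoundedContinuousFunction.coe_mul, BoundedContinuousFunction.coe_star,
      Pi.mul_apply, Pi.star_apply, h₁, hfg, star_mul', Complex.star_def, Complex.conj_ofReal]
    ring
  have h5 := inner_of_halfExp S h4
  rw [← S.J_J S.vac, inner_conjIso, S.J_J, map_star, map_star,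
    ContinuousLinearMap.star_eq_adjoint, ContinuousLinearMap.star_eq_adjoint,
    ContinuousLinearMap.adjoint_inner_right, ContinuousLinearMap.adjoint_inner_right] at h5
  exact h5

theorem abs_le_exp_mul {u R : ℝ} (hu : |u| ≤ R) : |u| ≤ Real.exp R * |1 - Real.exp u| := by
  rcases le_total 0 u with h | h
  · have h1 : u + 1 ≤ Real.exp u := Real.add_one_le_exp u
    have h2 : 1 ≤ Real.exp R := Real.one_le_exp ((abs_nonneg u).trans hu)
    rw [abs_of_nonneg h, abs_sub_comm, abs_of_nonneg (by linarith)]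
    nlinarith
  · have h1 : -u + 1 ≤ Real.exp (-u) := Real.add_one_le_exp (-u)
    have h2 : Real.exp u ≤ 1 := Real.exp_le_one_iff.2 h
    have h3 : Real.exp (-u) ≤ Real.exp R := Real.exp_le_exp.2 (by rwa [abs_of_nonpos h] at hu)
    have h4 : Real.exp (-u) * Real.exp u = 1 := by rw [← Real.exp_add]; simp
    rw [abs_of_nonpos h, abs_of_nonneg (by linarith)]
    nlinarith

theorem wave_vac (S : ModularDatum H) (t : ℝ) : S.D.wave t S.vac = S.vac := by
  have h1 : ∀ n : ℕ, S.D.wave t (S.D.apply (cut n) S.vac) = S.D.apply (cut n) S.vac := by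
    intro n
    have h2 := apply_vac_eq S (cut n)
      (mulCut n (fun u => ((Real.exp (u / 2) : ℝ) : ℂ)) (by fun_prop))
      (mulCut n (fun u => ((Real.exp u : ℝ) : ℂ)) (by fun_prop))
      (fun u => by simp [mul_comm]) (fun u => by
        have : Real.exp u = Real.exp (u / 2) * Real.exp (u / 2) := by
          rw [← Real.exp_add]; congr 1; ring
        simp only [mulCut_apply]
        rw [this]; push_cast; ring)
    have h3 := norm_apply_le_of_pointwise S.D ((LineCalculus.character t - 1) * cut n)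
      (cut n - mulCut n (fun u => ((Real.exp u : ℝ) : ℂ)) (by fun_prop))
      (|t| * Real.exp (n + 1)) (by positivity) (fun u => by
        simp only [BoundedContinuousFunction.coe_mul, BoundedContinuousFunction.coe_sub,
          Pi.mul_apply, Pi.sub_apply, mulCut_apply, BoundedContinuousFunction.coe_one,
          Pi.one_apply]
        have h4 : cut n u - ((Real.exp u : ℝ) : ℂ) * cut n u =
            ((1 - Real.exp u : ℝ) : ℂ) * cut n u := by push_cast; ring
        rw [h4, norm_mul, norm_mul, Complex.norm_real, Real.norm_eq_abs]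
        by_cases hu : (n : ℝ) + 1 ≤ |u|
        · simp [cutR_eq_zero hu]
        · push Not at hu
          have h5 : ‖LineCalculus.character t u - 1‖ ≤ |t| * |u| := by
            rw [character_apply]
            refine (Real.norm_exp_I_mul_ofReal_sub_one_le).trans ?_
            rw [Real.norm_eq_abs, abs_mul]
          have h6 := abs_le_exp_mul hu.le
          calc _ ≤ (|t| * (Real.exp (n + 1) * |1 - Real.exp u|)) * ‖cut n u‖ := by
                gcongr
                exact h5.trans (by gcongr)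
            _ = _ := by ring) S.vac
    rw [map_sub S.D.apply (cut n), sub_apply, h2, sub_self, norm_zero, mul_zero,
      norm_le_zero_iff, apply_mul_apply, map_sub, map_one, sub_apply, sub_eq_zero] at h3
    exact h3
  have h2 := ((S.D.wave t).continuous.tendsto _).comp (tendsto_cut S.D S.vac)
  have h3 : (⇑(S.D.wave t) ∘ fun n => S.D.apply (cut n) S.vac) =
      fun n => S.D.apply (cut n) S.vac := funext h1
  rw [h3] at h2
  exact tendsto_nhds_unique h2 (tendsto_cut S.D S.vac)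

theorem norm_star_vac_le (S : ModularDatum H) {a : H →L[ℂ] H} (ha : a ∈ S.M) {p q : ℝ}
    (hpq : p ≤ q) (hs : S.D.SupportedIn (Set.Icc p q) (a S.vac)) :
    ‖star a S.vac‖ ≤ Real.exp (q / 2) * ‖a S.vac‖ := by
  rw [← S.J.norm_map]
  refine le_of_tendsto' (tendsto_cut S.D (S.J (star a S.vac))).norm fun n => ?_
  rw [halfExp_of_mem S ha (cut n)
    (mulCut n (fun u => ((Real.exp (u / 2) : ℝ) : ℂ)) (by fun_prop))
    (fun u => by simp [mul_comm])]
  refine norm_apply_le_of_supp S.D hpq hs fun u hu => ?_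
  rw [mulCut_apply, norm_mul, Complex.norm_real, Real.norm_of_nonneg (Real.exp_pos _).le]
  have h1 : ‖cut n u‖ ≤ 1 := ((cut n).norm_coe_le_norm u).trans (norm_cut_le n)
  calc _ ≤ Real.exp (q / 2) * 1 := by gcongr; exact hu.2
    _ = _ := mul_one _

end Crest.Agent.R84
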